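import Mathlib
import Vale.Agent.Results.P002.A_closed_surface_all_rank
import Vale.Agent.Results.P002.A_punctured_all_rank
import Vale.Agent.Results.P002.A_regular_all_rank

namespace Vale.Agent.Results.P002.AAA_union

open Vale.Agent.Lib.P002.Surf

/-- Curves, all ranks: the conjunction of the closed surface family, the family for regular
semisimple boundary classes on every punctured surface, and the family for all regular boundary
classes. -/
theorem result :
    (∀ (r g : ℕ) (_ : 2 ≤ r) (_ : 2 ≤ g),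
      ∃ L : IntermediateField ℚ ℂ, FiniteDimensional ℚ L ∧
        ∃ (D : MvPolynomial (Fin ((2 * g - 2) * (r ^ 2 - 1))) ℂ)
          (χ : (Fin ((2 * g - 2) * (r ^ 2 - 1)) → ℂˣ) → RepData r g 0),
          D ≠ 0 ∧
          (∀ p : Var r g 0, ∃ (P : MvPolynomial (Fin ((2 * g - 2) * (r ^ 2 - 1))) ℂ) (e : ℕ),
            ∀ t, MvPolynomial.eval (fun i => ((t i : ℂˣ) : ℂ)) D ≠ 0 →
              point (χ t) p * (MvPolynomial.eval (fun i => ((t i : ℂˣ) : ℂ)) D) ^ e =
                MvPolynomial.eval (fun i => ((t i : ℂˣ) : ℂ)) P) ∧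
          (∀ t, MvPolynomial.eval (fun i => ((t i : ℂˣ) : ℂ)) D ≠ 0 →
            SurfaceRelation (χ t) ∧ IsIrreducibleRep (χ t)) ∧
          (∀ ρ : RepData r g 0,
            {t | MvPolynomial.eval (fun i => ((t i : ℂˣ) : ℂ)) D ≠ 0 ∧
              ConjEquivalent ρ (χ t)}.Finite) ∧
          ∀ f : MvPolynomial (Var r g 0) ℂ,
            (∀ ρ : RepData r g 0, SurfaceRelation ρ → IsOLPoint L ρ →
              MvPolynomial.aeval (point ρ) f = 0) →
            ∀ t, MvPolynomial.eval (fun i => ((t i : ℂˣ) : ℂ)) D ≠ 0 →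
              MvPolynomial.aeval (point (χ t)) f = 0) ∧
    (∀ (r g s : ℕ) (_ : 2 ≤ r) (_ : 1 ≤ s) (_ : 3 ≤ 2 * g + s)
      (a : Fin s → Fin r → ℂ) (_ : ∀ j i, IsIntegral ℤ (a j i)) (_ : ∀ j, ∏ i, a j i = 1)
      (_ : ∀ j, Function.Injective (a j)),
      ∃ L : IntermediateField ℚ ℂ, FiniteDimensional ℚ L ∧
        ∃ χ : (Fin ((r - 1) * ((2 * g + s - 2) * r + 2 * g - 2)) → ℂˣ) → RepData r g s,
          IsLaurentMap χ ∧ (∀ t, χ t ∈ RelRep a) ∧
          (∀ t t', ConjEquivalent (χ t) (χ t') → t = t') ∧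
          (NonResonant a → ∀ ρ ∈ RelRep (g := g) a, IsIrreducibleRep ρ) ∧
          ∀ f : MvPolynomial (Var r g s) ℂ,
            (∀ ρ ∈ RelRep (g := g) a, IsOLPoint L ρ → MvPolynomial.aeval (point ρ) f = 0) →
            ∀ t, MvPolynomial.aeval (point (χ t)) f = 0) ∧
    (∀ (r g s : ℕ) (_ : 2 ≤ r) (_ : (1 ≤ g ∧ 2 ≤ s) ∨ (g = 0 ∧ 4 ≤ s))
      (a : Fin s → Fin r → ℂ)
      (_ : ∀ j i, IsIntegral ℤ (a j i)) (_ : ∀ j, ∏ i, a j i = 1),
      ∃ L : IntermediateField ℚ ℂ, FiniteDimensional ℚ L ∧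
        ∃ (D : MvPolynomial (Fin ((r - 1) * ((2 * g + s - 2) * r + 2 * g - 2))) ℂ)
          (χ : (Fin ((r - 1) * ((2 * g + s - 2) * r + 2 * g - 2)) → ℂˣ) → RepData r g s),
          D ≠ 0 ∧ IsLaurentMap χ ∧
          (∀ t, MvPolynomial.eval (fun i => ((t i : ℂˣ) : ℂ)) D ≠ 0 →
            χ t ∈ RelReg a ∧ IsIrreducibleRep (χ t)) ∧
          (∀ t t', MvPolynomial.eval (fun i => ((t i : ℂˣ) : ℂ)) D ≠ 0 →
            MvPolynomial.eval (fun i => ((t' i : ℂˣ) : ℂ)) D ≠ 0 →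
            ConjEquivalent (χ t) (χ t') → t = t') ∧
          ∀ f : MvPolynomial (Var r g s) ℂ,
            (∀ ρ ∈ RelReg (g := g) a, IsIrreducibleRep ρ → IsOLPoint L ρ →
              MvPolynomial.aeval (point ρ) f = 0) →
            ∀ t, MvPolynomial.eval (fun i => ((t i : ℂˣ) : ℂ)) D ≠ 0 →
              MvPolynomial.aeval (point (χ t)) f = 0) :=
  ⟨Vale.Agent.Results.P002.A_closed_surface_all_rank.result,
    Vale.Agent.Results.P002.A_punctured_all_rank.result,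
    Vale.Agent.Results.P002.A_regular_all_rank.result⟩

end Vale.Agent.Results.P002.AAA_union
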